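import Vale.Agent.P181.DU.Defs2
import Vale.Agent.P181.SZ.Spec2

set_option autoImplicit false

/-!
# P181, SV: the rest of the range condition near `w = 2 a`

Two long rows `λ_2, λ_3 ≥ 7 a / 8`, `w ≤ 9 a / 4` and a light tail. The square of the area of
three small columns has weight `(2, 2)`: multiplying by it adds three nonconstant columns at the
price of four cells. `mu' = mu + (2, 2, 0, ..)`.
-/

open MvPolynomial

namespace Vale.Agent.P181.SV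

open Vale.Agent.P181.T4 (HW ex low)
open Vale.Agent.P181.H280 (plethMult)
open Vale.Agent.P181.H463 (gt)
open Vale.Agent.P181.PL (dn)
open Vale.Agent.P181.DG

/-- **(V1)** multiplication by the square of the area of three new small columns, graded. -/
def AreaT : Prop := ∀ (m S : ℕ) (mu mu' : Fin m → ℕ) (kap : Multiset ℕ) (t : ℕ), 3 ≤ S → 2 ≤ m →
  (∀ i, mu' i = mu i + if (i : ℕ) < 2 then 2 else 0) →
  NT m S mu kap (t + 1) + NT m S mu' kap (t + 3) ≤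
    NT m S mu kap t + NT m S mu' kap (t + 4)

/-- **(V2)** the assembly: `DU.AsmU` with marks in `nu + 2 h (e_1 + e_2) +` a strip of size `y`,
`y ≤ a`, `a + (Z + 1) X ≤ y + 3 h`; only `a < b` is used for the marks. -/
def AsmN : Prop := ∀ (a b n R X Z K w a0 b0 h y : ℕ) (lam nu : Fin n → ℕ), Antitone lam →
  ∑ i, lam i = a * b → ((∀ i, 0 < lam i) ∨ n ≤ Z * X ^ 2) → 3 ≤ R → R + 1 < n →
  w = dn lam 1 → Z ^ 2 ≤ w → w < (Z + 1) ^ 2 →
  1 ≤ K → 16 * K + 16 ≤ X → X ≤ Z → 4 * w ≤ X ^ K → 100 * K * ((Z + 1) * X) ≤ a →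
  a + 3 * K + 2 ≤ b → Z * X ^ 2 + 2 ≤ a → a0 * (a0 + 2) ≤ w → a + 3 ≤ w →
  3 * (b0 + 1) + 3 * h ≤ a → y ≤ a → a + (Z + 1) * X ≤ y + 3 * h →
  (∀ i : Fin n, 1 ≤ (i : ℕ) → nu i + (if (i : ℕ) < 3 then 2 * h else 0) ≤ lam i) →
  (∀ i : Fin n, 1 ≤ (i : ℕ) →
    ex lam ((i : ℕ) + 1) ≤ nu i + (if (i : ℕ) < 2 then 2 * h else 0)) →
  w = dn nu 1 + y + 4 * h →
  (n ≤ Z * X ^ 2 → 2 * ((w + 1) ^ ((R + 1) * (Z * X ^ 2)) *
    gt (n - R) (Z * X ^ 2 + 1) (low R nu)) ≤ plethMult b0 a0 n nu) →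
  plethMult a b n lam ≤ plethMult b a n lam

/-- **(V3)** the theorem (from `AsmN`, `LBC`, `LBR`): two long rows `λ_2, λ_3`, light tail. -/
def SlivT : Prop := ∃ (C : ℝ) (c : ℕ), 0 < C ∧ ∀ a b : ℕ,
  (a : ℝ) + C * (1 + Real.log a) ^ c ≤ b →
  ∀ (n : ℕ) (lam : Fin n → ℕ), Antitone lam → ∑ i, lam i = a * b →
  7 * a ≤ 8 * ex lam 2 → 4 * dn lam 1 ≤ 9 * a →
  C * (1 + Real.log a) ^ c * (dn lam 3 : ℝ) ≤ a →
  plethMult a b n lam ≤ plethMult b a n lam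

end Vale.Agent.P181.SV
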