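import Vale.Agent.P181.SV.Defs
import Vale.Agent.P181.DX.Defs

set_option autoImplicit false

/-!
# P181, SV: the literals for every `b > a`
-/

open MvPolynomial

namespace Vale.Agent.P181.SV

open Vale.Agent.P181.T4 (HW ex low)
open Vale.Agent.P181.H280 (plethMult)
open Vale.Agent.P181.H463 (gt)
open Vale.Agent.P181.PL (dn)
open Vale.Agent.P181.DG

/-- **(V2X)** `AsmN` with `a + 1 ≤ b` and `(Z + 1) * X ^ 3 ≤ a` instead of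
`a + 3 * K + 2 ≤ b`. -/
def AsmNX : Prop := ∀ (a b n R X Z K w a0 b0 h y : ℕ) (lam nu : Fin n → ℕ), Antitone lam →
  ∑ i, lam i = a * b → ((∀ i, 0 < lam i) ∨ n ≤ Z * X ^ 2) → 3 ≤ R → R + 1 < n →
  w = dn lam 1 → Z ^ 2 ≤ w → w < (Z + 1) ^ 2 →
  1 ≤ K → 16 * K + 16 ≤ X → X ≤ Z → 4 * w ≤ X ^ K → 100 * K * ((Z + 1) * X) ≤ a →
  a + 1 ≤ b → (Z + 1) * X ^ 3 ≤ a → Z * X ^ 2 + 2 ≤ a → a0 * (a0 + 2) ≤ w → a + 3 ≤ w →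
  3 * (b0 + 1) + 3 * h ≤ a → y ≤ a → a + (Z + 1) * X ≤ y + 3 * h →
  (∀ i : Fin n, 1 ≤ (i : ℕ) → nu i + (if (i : ℕ) < 3 then 2 * h else 0) ≤ lam i) →
  (∀ i : Fin n, 1 ≤ (i : ℕ) →
    ex lam ((i : ℕ) + 1) ≤ nu i + (if (i : ℕ) < 2 then 2 * h else 0)) →
  w = dn nu 1 + y + 4 * h →
  (n ≤ Z * X ^ 2 → 2 * ((w + 1) ^ ((R + 1) * (Z * X ^ 2)) *
    gt (n - R) (Z * X ^ 2 + 1) (low R nu)) ≤ plethMult b0 a0 n nu) →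
  plethMult a b n lam ≤ plethMult b a n lam

/-- **(V3X)** two long rows `λ_2, λ_3`, light tail, every `b > a`. -/
def SlivX : Prop := ∃ (C : ℝ) (c : ℕ), 0 < C ∧ ∀ a b : ℕ, a < b →
  ∀ (n : ℕ) (lam : Fin n → ℕ), Antitone lam → ∑ i, lam i = a * b →
  7 * a ≤ 8 * ex lam 2 → 4 * dn lam 1 ≤ 9 * a →
  C * (1 + Real.log a) ^ c * (dn lam 3 : ℝ) ≤ a →
  plethMult a b n lam ≤ plethMult b a n lam

end Vale.Agent.P181.SV
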